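import Crest.Agent.R322.Iface
import Crest.Agent.R322.Sphere

-- ▼ part R322/Unroll
section

set_option autoImplicit false

namespace Crest.Agent.R322

open MeasureTheory Crest.StreamLearn
open scoped ENNReal

section Abstract

variable {d : ℕ} {S : Type}

/-- run of a step function over `n` samples starting at time `t` -/
def runY (step : ℕ → S → E d → ℝ → S) : (n : ℕ) → (t : ℕ) → S → (Fin n → E d) → (Fin n → ℝ) → S
  | 0, _, st, _, _ => st
  | n + 1, t, st, X, Y =>
      runY step n (t + 1) (step t st (X 0) (Y 0)) (fun i => X i.succ) (fun i => Y i.succ)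

/-- the measurements -/
noncomputable def ms {n : ℕ} (X : Fin n → E d) (s : E d) : Fin n → ℝ := fun i => inner ℝ (X i) s

lemma measurable_ms {n : ℕ} : Measurable fun p : (Fin n → E d) × E d => ms p.1 p.2 := by
  refine measurable_pi_lambda _ fun i => ?_
  exact ((measurable_pi_apply i).comp measurable_fst).inner measurable_snd

variable [MeasurableSpace S] [DiscreteMeasurableSpace S] [Countable S]

lemma measurable_runY {Ω : Type} [MeasurableSpace Ω] (step : Ω → ℕ → S → E d → ℝ → S)
    (hstep : ∀ t st, Measurable fun p : Ω × (E d × ℝ) => step p.1 t st p.2.1 p.2.2) (n : ℕ) :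
    ∀ t, Measurable fun p : Ω × (S × ((Fin n → E d) × (Fin n → ℝ))) =>
      runY (step p.1) n t p.2.1 p.2.2.1 p.2.2.2 := by
  induction n with
  | zero => intro t; exact measurable_fst.comp measurable_snd
  | succ n ih =>
    intro t
    have h1 : Measurable fun p : S × (Ω × (E d × ℝ)) => step p.2.1 t p.1 p.2.2.1 p.2.2.2 :=
      measurable_from_prod_countable_right fun st => hstep t st
    have hX : Measurable fun p : Ω × (S × ((Fin (n + 1) → E d) × (Fin (n + 1) → ℝ))) => p.2.2.1 :=
      measurable_fst.comp (measurable_snd.comp measurable_snd)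
    have hY : Measurable fun p : Ω × (S × ((Fin (n + 1) → E d) × (Fin (n + 1) → ℝ))) => p.2.2.2 :=
      measurable_snd.comp (measurable_snd.comp measurable_snd)
    have hS : Measurable fun p : Ω × (S × ((Fin (n + 1) → E d) × (Fin (n + 1) → ℝ))) => p.2.1 :=
      measurable_fst.comp measurable_snd
    have hXi : ∀ i, Measurable fun p : Ω × (S × ((Fin (n + 1) → E d) × (Fin (n + 1) → ℝ))) =>
        p.2.2.1 i := fun i => measurable_pi_iff.1 hX i
    have hYi : ∀ i, Measurable fun p : Ω × (S × ((Fin (n + 1) → E d) × (Fin (n + 1) → ℝ))) =>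
        p.2.2.2 i := fun i => measurable_pi_iff.1 hY i
    have h3 : Measurable fun p : Ω × (S × ((Fin (n + 1) → E d) × (Fin (n + 1) → ℝ))) =>
        step p.1 t p.2.1 (p.2.2.1 0) (p.2.2.2 0) :=
      h1.comp (hS.prodMk (measurable_fst.prodMk ((hXi 0).prodMk (hYi 0))))
    have h2 : Measurable fun p : Ω × (S × ((Fin (n + 1) → E d) × (Fin (n + 1) → ℝ))) =>
        (p.1, (step p.1 t p.2.1 (p.2.2.1 0) (p.2.2.2 0),
          ((fun i : Fin n => p.2.2.1 i.succ), (fun i : Fin n => p.2.2.2 i.succ)))) :=
      measurable_fst.prodMk (h3.prodMk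
        ((measurable_pi_lambda _ fun i : Fin n => hXi i.succ).prodMk
          (measurable_pi_lambda _ fun i : Fin n => hYi i.succ)))
    exact (ih (t + 1)).comp h2

/-- peel off the first sample -/
lemma lintegral_gam_succ (n : ℕ) (f : (Fin (n + 1) → E d) → ℝ≥0∞) (hf : Measurable f) :
    ∫⁻ X, f X ∂(gam d (n + 1)) =
      ∫⁻ x, ∫⁻ X, f (Fin.cons x X) ∂(gam d n) ∂(ProbabilityTheory.stdGaussian (E d)) := by
  have h := (measurePreserving_piFinSuccAbove (n := n)
    (fun _ : Fin (n + 1) => ProbabilityTheory.stdGaussian (E d)) 0)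
  have h2 := h.symm.lintegral_comp hf
  unfold gam
  rw [← h2, lintegral_prod]
  · have : ∀ (x : E d) (y : Fin n → E d),
        (MeasurableEquiv.piFinSuccAbove (fun _ : Fin (n + 1) => E d) 0).symm (x, y)
          = Fin.cons x y := by
      intro x y
      simp [MeasurableEquiv.piFinSuccAbove]
      rfl
    simp_rw [this]
  · exact (hf.comp (MeasurableEquiv.measurable _)).aemeasurable

instance (n : ℕ) : IsProbabilityMeasure (gam d n) := by unfold gam; infer_instance

/-- value function -/
noncomputable def Vf (step : ℕ → S → E d → ℝ → S) (g : S → E d → ℝ≥0∞) (n t : ℕ) (st : S)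
    (s : E d) : ℝ≥0∞ :=
  ∫⁻ X, g (runY step n t st X (ms X s)) s ∂(gam d n)

lemma measurable_payoff (step : ℕ → S → E d → ℝ → S)
    (hstep : ∀ t st, Measurable fun p : E d × ℝ => step t st p.1 p.2)
    (g : S → E d → ℝ≥0∞) (hg : ∀ st, Measurable (g st)) (n t : ℕ) :
    Measurable fun p : S × (E d × (Fin n → E d)) =>
      g (runY step n t p.1 p.2.2 (ms p.2.2 p.2.1)) p.2.1 := by
  have h1 := measurable_runY (Ω := Unit) (fun _ => step)
    (fun t st => (hstep t st).comp measurable_snd) n t
  have h2 : Measurable fun p : S × (E d × (Fin n → E d)) =>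
      runY step n t p.1 p.2.2 (ms p.2.2 p.2.1) := by
    have h3 : Measurable fun p : S × (E d × (Fin n → E d)) =>
        ((), (p.1, (p.2.2, ms p.2.2 p.2.1))) := by
      refine measurable_const.prodMk (measurable_fst.prodMk ?_)
      refine (measurable_snd.comp measurable_snd).prodMk ?_
      exact measurable_ms.comp ((measurable_snd.comp measurable_snd).prodMk
        (measurable_fst.comp measurable_snd))
    exact h1.comp h3
  have h4 : Measurable fun q : S × E d => g q.1 q.2 :=
    measurable_from_prod_countable_right fun st => hg st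
  exact h4.comp (h2.prodMk (measurable_fst.comp measurable_snd))

lemma measurable_Vf (step : ℕ → S → E d → ℝ → S)
    (hstep : ∀ t st, Measurable fun p : E d × ℝ => step t st p.1 p.2)
    (g : S → E d → ℝ≥0∞) (hg : ∀ st, Measurable (g st)) (n t : ℕ) :
    Measurable fun p : S × E d => Vf step g n t p.1 p.2 := by
  unfold Vf
  have h := measurable_payoff step hstep g hg n t
  have h2 : Measurable fun q : (S × E d) × (Fin n → E d) =>
      g (runY step n t q.1.1 q.2 (ms q.2 q.1.2)) q.1.2 :=
    h.comp ((measurable_fst.comp measurable_fst).prodMk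
      ((measurable_snd.comp measurable_fst).prodMk measurable_snd))
  exact h2.lintegral_prod_right'

omit [MeasurableSpace S] [DiscreteMeasurableSpace S] [Countable S] in
@[simp] lemma Vf_zero (step : ℕ → S → E d → ℝ → S) (g : S → E d → ℝ≥0∞) (t : ℕ) (st : S)
    (s : E d) : Vf step g 0 t st s = g st s := by
  unfold Vf
  simp [runY]

lemma Vf_succ (step : ℕ → S → E d → ℝ → S)
    (hstep : ∀ t st, Measurable fun p : E d × ℝ => step t st p.1 p.2)
    (g : S → E d → ℝ≥0∞) (hg : ∀ st, Measurable (g st)) (n t : ℕ) (st : S) (s : E d) :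
    Vf step g (n + 1) t st s =
      ∫⁻ x, Vf step g n (t + 1) (step t st x (inner ℝ x s)) s
        ∂(ProbabilityTheory.stdGaussian (E d)) := by
  unfold Vf
  rw [lintegral_gam_succ]
  · rfl
  · exact (measurable_payoff step hstep g hg (n + 1) t).comp
      (measurable_const.prodMk (measurable_const.prodMk measurable_id))

lemma Vf_add (step : ℕ → S → E d → ℝ → S)
    (hstep : ∀ t st, Measurable fun p : E d × ℝ => step t st p.1 p.2)
    (g : S → E d → ℝ≥0∞) (hg : ∀ st, Measurable (g st)) (m n : ℕ) :
    ∀ (t : ℕ) (st : S) (s : E d), Vf step g (m + n) t st s =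
      ∫⁻ X, Vf step g n (t + m) (runY step m t st X (ms X s)) s ∂(gam d m) := by
  induction m with
  | zero =>
    intro t st s
    simp [runY]
  | succ m ih =>
    intro t st s
    rw [show m + 1 + n = (m + n) + 1 by ring, Vf_succ step hstep g hg]
    simp_rw [ih]
    rw [lintegral_gam_succ]
    · refine lintegral_congr fun x => lintegral_congr fun X => ?_
      simp only [runY, ms, Fin.cons_zero, Fin.cons_succ]
      rw [show t + 1 + m = t + (m + 1) by ring]
      rfl
    · have h1 := measurable_runY (Ω := Unit) (fun _ => step)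
        (fun t st => (hstep t st).comp measurable_snd) (m + 1) t
      have h2 : Measurable fun X : Fin (m + 1) → E d => ((), (st, (X, ms X s))) := by
        refine measurable_const.prodMk (measurable_const.prodMk (measurable_id.prodMk ?_))
        exact measurable_ms.comp (measurable_id.prodMk measurable_const)
      exact (measurable_Vf step hstep g hg n (t + (m + 1))).comp
        ((h1.comp h2).prodMk measurable_const)

end Abstract

end Crest.Agent.R322
private theorem rz_10253e6635 : type_of% @_root_.Crest.Agent.R322.runY.eq_def := @_root_.Crest.Agent.R322.runY.eq_def -- L15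
private theorem rz_bad94681dd : type_of% @_root_.Crest.Agent.R322.runY.eq_1 := @_root_.Crest.Agent.R322.runY.eq_1 -- L15
end

-- ▼ part R322/FrIter

set_option autoImplicit false

namespace Crest.Agent.R322

open MeasureTheory Crest.StreamLearn
open scoped ENNReal

section Abstract

variable {d : ℕ} {S : Type}
variable [MeasurableSpace S] [DiscreteMeasurableSpace S] [Countable S]

/-- abstract one-block bound -/
def BlockBound (d B η : ℕ) (Γ : ℕ → ℝ≥0∞) : Prop :=
  ∀ (J : Type) [Fintype J] (κ : ℝ≥0∞) (ν : J → Measure (E d)),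
      (∀ j, IsFiniteMeasure (ν j)) → (∀ j, Frost η κ (ν j)) →
      ∀ (F : (Fin B → E d) → (Fin B → ℝ) → J),
      (∀ j, MeasurableSet {p : (Fin B → E d) × (Fin B → ℝ) | F p.1 p.2 = j}) →
      ∀ (x : E d) (r : ℝ), 0 < r →
        ∑ j, ∫⁻ X, ν j {s | s ∈ Metric.closedBall x r ∧
            F X (fun i => inner ℝ (X i) s) = j} ∂(gam d B)
          ≤ κ * Γ (Fintype.card J) * ENNReal.ofReal r ^ η

lemma measurable_runY' (step : ℕ → S → E d → ℝ → S)
    (hstep : ∀ t st, Measurable fun p : E d × ℝ => step t st p.1 p.2) (B t : ℕ) (st : S) :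
    Measurable fun p : (Fin B → E d) × (Fin B → ℝ) => runY step B t st p.1 p.2 := by
  have h1 := measurable_runY (Ω := Unit) (fun _ => step)
    (fun t st => (hstep t st).comp measurable_snd) B t
  have h2 : Measurable fun p : (Fin B → E d) × (Fin B → ℝ) => ((), (st, p)) :=
    measurable_const.prodMk (measurable_const.prodMk measurable_id)
  exact h1.comp h2

lemma block_expand (step : ℕ → S → E d → ℝ → S)
    (hstep : ∀ t st, Measurable fun p : E d × ℝ => step t st p.1 p.2)
    (g : S → E d → ℝ≥0∞) (hg : ∀ st, Measurable (g st)) (μ : Measure (E d)) [IsFiniteMeasure μ]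
    (B n t : ℕ) (st : S) (J : Type) [Fintype J] (enc : S → J) (dec : J → S)
    (hcode : ∀ X Y, dec (enc (runY step B t st X Y)) = runY step B t st X Y)
    (A : Set (E d)) (hA : MeasurableSet A) :
    μ.withDensity (Vf step g (B + n) t st) A =
      ∑ j, ∫⁻ X, μ.withDensity (Vf step g n (t + B) (dec j))
        {s | s ∈ A ∧ enc (runY step B t st X (fun i => inner ℝ (X i) s)) = j} ∂(gam d B) := by
  classical
  set F : (Fin B → E d) → (Fin B → ℝ) → J := fun X Y => enc (runY step B t st X Y) with hF
  have hFm : ∀ j, MeasurableSet {p : (Fin B → E d) × (Fin B → ℝ) | F p.1 p.2 = j} := fun j =>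
    (measurable_runY' step hstep B t st) (MeasurableSet.of_discrete (s := {s : S | enc s = j}))
  have hFm2 : ∀ j, MeasurableSet {p : E d × (Fin B → E d) | F p.2 (ms p.2 p.1) = j} := fun j => by
    have h : Measurable fun p : E d × (Fin B → E d) => (p.2, ms p.2 p.1) :=
      measurable_snd.prodMk (measurable_ms.comp (measurable_snd.prodMk measurable_fst))
    exact h (hFm j)
  have hV : ∀ m u q, Measurable (Vf step g m u q) := fun m u q =>
    (measurable_Vf step hstep g hg m u).comp (measurable_const.prodMk measurable_id)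
  rw [withDensity_apply _ hA]
  have h1 : ∀ s, Vf step g (B + n) t st s = ∑ j, ∫⁻ X,
      Set.indicator {X | F X (ms X s) = j} (fun _ => Vf step g n (t + B) (dec j) s) X
        ∂(gam d B) := by
    intro s
    rw [Vf_add step hstep g hg B n t st s, ← lintegral_finsetSum']
    · refine lintegral_congr fun X => ?_
      rw [Finset.sum_eq_single (F X (ms X s))]
      · rw [Set.indicator_of_mem (by simp)]
        rw [hF]
        simp only [hcode]
      · intro j _ hj
        rw [Set.indicator_of_notMem]
        intro h
        exact hj h.symm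
      · intro h
        exact absurd (Finset.mem_univ _) h
    · intro j _
      refine (measurable_const.indicator ?_).aemeasurable
      exact (measurable_prodMk_left (x := s)) (hFm2 j)
  simp_rw [h1]
  rw [lintegral_finsetSum']
  · refine Finset.sum_congr rfl fun j _ => ?_
    rw [lintegral_lintegral_swap]
    · refine lintegral_congr fun X => ?_
      have hm : MeasurableSet {s | F X (ms X s) = j} :=
        (measurable_prodMk_right (y := X)) (hFm2 j)
      have : {s | s ∈ A ∧ enc (runY step B t st X (fun i => inner ℝ (X i) s)) = j}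
          = {s | F X (ms X s) = j} ∩ A := by
        ext s
        simp only [Set.mem_ofPred_eq, Set.mem_inter_iff]
        exact and_comm
      rw [this, withDensity_apply _ (hm.inter hA), ← Measure.restrict_restrict hm,
        ← lintegral_indicator hm]
      refine lintegral_congr fun s => ?_
      by_cases h : F X (ms X s) = j
      · rw [Set.indicator_of_mem (by exact h), Set.indicator_of_mem (by exact h)]
      · rw [Set.indicator_of_notMem (by exact h), Set.indicator_of_notMem (by exact h)]
    · have : (Function.uncurry fun (s : E d) (X : Fin B → E d) =>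
          Set.indicator {X | F X (ms X s) = j} (fun _ => Vf step g n (t + B) (dec j) s) X)
          = Set.indicator {p : E d × (Fin B → E d) | F p.2 (ms p.2 p.1) = j}
            (fun p => Vf step g n (t + B) (dec j) p.1) := by
        ext p
        rcases p with ⟨s, X⟩
        simp only [Function.uncurry_apply_pair]
        by_cases h : F X (ms X s) = j
        · rw [Set.indicator_of_mem (by exact h), Set.indicator_of_mem (by exact h)]
        · rw [Set.indicator_of_notMem (by exact h), Set.indicator_of_notMem (by exact h)]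
      rw [this]
      exact (((hV _ _ _).comp measurable_fst).indicator (hFm2 j)).aemeasurable
  · intro j _
    have h3 : Measurable fun p : E d × (Fin B → E d) =>
        Set.indicator {p : E d × (Fin B → E d) | F p.2 (ms p.2 p.1) = j}
            (fun p => Vf step g n (t + B) (dec j) p.1) p :=
      ((hV _ _ _).comp measurable_fst).indicator (hFm2 j)
    have h4 := h3.lintegral_prod_right' (ν := gam d B)
    have e : (fun s => ∫⁻ X, Set.indicator {X | F X (ms X s) = j}
        (fun _ => Vf step g n (t + B) (dec j) s) X ∂(gam d B)) = fun s => ∫⁻ X,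
        Set.indicator {p : E d × (Fin B → E d) | F p.2 (ms p.2 p.1) = j}
            (fun p => Vf step g n (t + B) (dec j) p.1) (s, X) ∂(gam d B) := by
      funext s
      refine lintegral_congr fun X => ?_
      by_cases h : F X (ms X s) = j
      · rw [Set.indicator_of_mem (by exact h), Set.indicator_of_mem (by exact h)]
      · rw [Set.indicator_of_notMem (by exact h), Set.indicator_of_notMem (by exact h)]
    rw [e]
    exact h4.aemeasurable

omit [MeasurableSpace S] [DiscreteMeasurableSpace S] [Countable S] in
lemma Vf_le_one (step : ℕ → S → E d → ℝ → S) (g : S → E d → ℝ≥0∞) (hg1 : ∀ st s, g st s ≤ 1)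
    (n t : ℕ) (st : S) (s : E d) : Vf step g n t st s ≤ 1 := by
  unfold Vf
  calc ∫⁻ X, g (runY step n t st X (ms X s)) s ∂(gam d n) ≤ ∫⁻ _, 1 ∂(gam d n) :=
        lintegral_mono fun X => hg1 _ _
    _ = 1 := by simp

/-- iteration of the block bound -/
theorem frost_iter (step : ℕ → S → E d → ℝ → S)
    (hstep : ∀ t st, Measurable fun p : E d × ℝ => step t st p.1 p.2)
    (g : S → E d → ℝ≥0∞) (hg : ∀ st, Measurable (g st)) (hg1 : ∀ st s, g st s ≤ 1)
    (μ : Measure (E d)) [IsFiniteMeasure μ]
    (B η : ℕ) (Γ : ℕ → ℝ≥0∞) (hΓ : Monotone Γ) (hblock : BlockBound d B η Γ) (N : ℕ)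
    (hcode : ∀ t st, ∃ (J : Type) (_ : Fintype J) (enc : S → J) (dec : J → S),
      Fintype.card J ≤ N ∧
      ∀ X Y, dec (enc (runY step B t st X Y)) = runY step B t st X Y)
    (κ₀ : ℝ≥0∞) (hbase : ∀ st, Frost η κ₀ (μ.withDensity (g st))) (k : ℕ) :
    ∀ t st, Frost η (κ₀ * Γ N ^ k) (μ.withDensity (Vf step g (k * B) t st)) := by
  induction k with
  | zero =>
    intro t st
    have : Vf step g (0 * B) t st = g st := by
      funext s
      rw [zero_mul]
      exact Vf_zero step g t st s
    rw [this]
    simpa using hbase st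
  | succ k ih =>
    intro t st x r hr
    obtain ⟨J, hJ, enc, dec, hcard, hc⟩ := hcode t st
    have e : (k + 1) * B = B + k * B := by ring
    rw [e, block_expand step hstep g hg μ B (k * B) t st J enc dec hc _
      Metric.isClosed_closedBall.measurableSet]
    have h := hblock J (κ₀ * Γ N ^ k)
      (fun j => μ.withDensity (Vf step g (k * B) (t + B) (dec j)))
      (fun j => by
        refine isFiniteMeasure_withDensity ?_
        refine ne_of_lt (lt_of_le_of_lt (lintegral_mono fun s => Vf_le_one step g hg1 _ _ _ s) ?_)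
        simp)
      (fun j => ih _ _) (fun X Y => enc (runY step B t st X Y))
      (fun j => (measurable_runY' step hstep B t st)
        (MeasurableSet.of_discrete (s := {s : S | enc s = j}))) x r hr
    refine h.trans ?_
    have h2 : Γ (Fintype.card J) ≤ Γ N := hΓ hcard
    calc κ₀ * Γ N ^ k * Γ (Fintype.card J) * ENNReal.ofReal r ^ η
        ≤ κ₀ * Γ N ^ k * Γ N * ENNReal.ofReal r ^ η := by gcongr
      _ = κ₀ * Γ N ^ (k + 1) * ENNReal.ofReal r ^ η := by ring

end Abstract

end Crest.Agent.R322
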